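import Vale.Agent.P014T.Kq.Dv
import Vale.Agent.P004F.Alg.Lam

/-! The row `KQ`. -/

namespace Vale.Agent.P014T.Kq
open PowerSeries P004F.Alg nonZeroDivisors

theorem ex_ring (a b : ℤ_[2]) : ∃ (A : Type) (_ : CommRing A) (_ : IsDomain A)
    (_ : IsPrincipalIdealRing A) (_ : Algebra ℤ_[2] A) (s : A) (ρ : A →ₗ[ℤ_[2]] ℤ_[2]), ρ 1 = 1 ∧
    s * s = algebraMap _ _ a + algebraMap _ _ b * s := by
  let Ω := AlgebraicClosure ℚ_[2]
  let f : Polynomial ℤ_[2] := .X ^ 2 - (.C b * .X + .C a)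
  have fm : f.Monic := Polynomial.monic_X_pow_sub (Polynomial.degree_linear_le.trans_lt (by norm_num))
  have : FaithfulSMul ℤ_[2] Ω := .trans ℤ_[2] ℚ_[2] Ω
  obtain ⟨z, hz⟩ := IsAlgClosed.exists_aeval_eq_zero Ω f (by
    rw [Polynomial.degree_sub_eq_left_of_degree_lt] <;> rw [Polynomial.degree_X_pow]
    exacts [by norm_num, Polynomial.degree_linear_le.trans_lt (by norm_num)])
  have zi : IsIntegral ℤ_[2] z := ⟨f, fm, hz⟩
  let L := IntermediateField.adjoin ℚ_[2] {z}
  have : FiniteDimensional ℚ_[2] L := IntermediateField.adjoin.finiteDimensional zi.tower_top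
  let A := integralClosure ℤ_[2] L
  have : IsDedekindDomain A := integralClosure.isDedekindDomain ℤ_[2] ℚ_[2] L
  have : Module.Finite ℤ_[2] A := IsIntegralClosure.finite ℤ_[2] ℚ_[2] L A
  have : Module.IsTorsionFree ℤ_[2] L := .trans_faithfulSMul ℤ_[2] ℚ_[2] L
  have : Module.IsTorsionFree ℤ_[2] A := IsIntegralClosure.isTorsionFree ℤ_[2] L
  have : IsPrincipalIdealRing A := .of_finite_maximals
    ((IsDedekindDomain.primesOver_finite (IsLocalRing.maximalIdeal ℤ_[2]) A).subset fun I hI =>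
      have : I.IsMaximal := hI
      ⟨this.isPrime, ⟨(IsLocalRing.eq_maximalIdeal
        (Ideal.isMaximal_comap_of_isIntegral_of_isMaximal I)).symm⟩⟩)
  let B := Module.Free.chooseBasis ℤ_[2] A
  obtain ⟨i, hi⟩ : ∃ i, IsUnit (B.repr 1 i) := by
    by_contra! h
    choose c hc using fun i => (show (2 : ℤ_[2]) ∣ B.repr 1 i by
      have := h i
      rwa [← mem_nonunits_iff, ← IsLocalRing.mem_maximalIdeal, PadicInt.maximalIdeal_eq_span_p,
        Ideal.mem_span_singleton] at this)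
    refine PadicInt.prime_p.not_isUnit (isUnit_of_map_unit (algebraMap ℤ_[2] A) _
      (.of_mul_eq_one (∑ i, c i • B i) ?_))
    rw [← Algebra.smul_def, ← B.sum_repr 1, Finset.smul_sum]
    simp only [hc, mul_smul]; rfl
  obtain ⟨w, hw⟩ := hi.exists_left_inv
  refine ⟨A, inferInstance, inferInstance, inferInstance, inferInstance,
    ⟨⟨z, IntermediateField.mem_adjoin_simple_self _ z⟩,
      (isIntegral_algHom_iff (L.val.restrictScalars ℤ_[2]) Subtype.val_injective).1 zi⟩,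
    w • B.coord i, hw, Subtype.ext (Subtype.ext ?_)⟩
  simp only [f, map_sub, map_add, map_mul, map_pow, Polynomial.aeval_X, Polynomial.aeval_C] at hz
  show z * z = algebraMap _ Ω a + algebraMap _ Ω b * z
  linear_combination hz

section
variable {Z A : Type} [CommRing Z] [CommRing A] [Algebra Z A]

theorem not_dvd [IsDomain A] [IsPrincipalIdealRing A] {π f : A⟦X⟧} (hπ : Prime π) (hf : π ∣ f) {n : ℕ}
    (u : IsUnit (coeff n f)) {c : A} (hc : c ≠ 0) : ¬ π ∣ C c := by
  induction c using UniqueFactorizationMonoid.induction_on_prime with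
  | h₁ => exact absurd rfl hc
  | h₂ c h => exact fun e => hπ.not_isUnit (isUnit_of_dvd_unit e (h.map _))
  | h₃ c p h hp ih =>
    have := (Ideal.span_singleton_prime hp.ne_zero).2 hp
    have k : ∀ x, Ideal.Quotient.mk (Ideal.span {p}) x = 0 ↔ p ∣ x := fun x =>
      Ideal.Quotient.eq_zero_iff_mem.trans Ideal.mem_span_singleton
    rw [map_mul, hπ.dvd_mul]
    refine not_or.2 ⟨ndvd _ hp.ne_zero k hπ fun e => hp.not_isUnit (isUnit_of_dvd_unit ((k _).1 ?_) u), ih h⟩
    obtain ⟨g, rfl⟩ := hf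
    rw [← coeff_map, map_mul, e, zero_mul, map_zero]

/-- evaluation at a root -/
noncomputable def jj {a b : Z} {s : A} (h : s * s = algebraMap _ _ a + algebraMap _ _ b * s) :
    QuadraticAlgebra Z⟦X⟧ (C a) (C b) →+* A⟦X⟧ where
  toFun z := map (algebraMap Z A) z.re + map (algebraMap Z A) z.im * C s
  map_one' := by simp [QuadraticAlgebra.re_one, QuadraticAlgebra.im_one]
  map_zero' := by simp
  map_add' _ _ := by simp; ring
  map_mul' z w := by
    have := congrArg (C (R := A)) h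
    simp only [QuadraticAlgebra.re_mul, QuadraticAlgebra.im_mul, map_add, map_mul, map_C] at this ⊢
    linear_combination -(map (algebraMap Z A) z.im * map (algebraMap Z A) w.im) * this

theorem retr (ρ : A →ₗ[Z] Z) (h : ρ 1 = 1) : ∃ T : A⟦X⟧ →+ Z⟦X⟧,
    (∀ g f, T (map (algebraMap Z A) g * f) = g * T f) ∧ ∀ g, T (map (algebraMap Z A) g) = g :=
  ⟨AddMonoidHom.mk' (fun f => PowerSeries.mk fun n => ρ (coeff n f)) fun _ _ => by ext; simp,
    fun g f => by ext; simp [coeff_mul, ← Algebra.smul_def],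
    fun g => by ext; simp [Algebra.algebraMap_eq_smul_one, h]⟩

theorem wrap [IsDomain Z] [IsDomain A] [IsPrincipalIdealRing A] {a b : Z} {s s' : A} {k : ℕ} (hk : 1 ≤ k)
    (h : s * s = algebraMap _ _ a + algebraMap _ _ b * s) (hs : s = 2 ^ k * s') (h2 : (2 : Z) ≠ 0)
    (h3 : ¬ IsUnit (2 : Z)) (ρ : A →ₗ[Z] Z) (h1 : ρ 1 = 1) (S : SyQ (QuadraticAlgebra Z⟦X⟧ (C a) (C b))) (x)
    {d : QuadraticAlgebra Z⟦X⟧ (C a) (C b)} (hd : Pr (S.Qt x) d) {n : ℕ} (u : IsUnit (coeff n d.re)) :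
    ∃ α β : Z⟦X⟧, ((∏ y, S.P y) * S.o.W x).re = α * d.re + 2 ^ k * β := by
  obtain ⟨T, t1, t2⟩ := retr ρ h1
  have inj : ∀ g, map (algebraMap Z A) g = 0 → g = 0 := fun g e => by rw [← t2 g, e, map_zero]
  have reg : ∀ x ∈ (QuadraticAlgebra Z⟦X⟧ (C a) (C b))⁰, jj h x ≠ 0 := fun x hx e =>
    nonZeroDivisors.ne_zero (QuadraticAlgebra.norm_mem_nonZeroDivisors_iff.2 hx) (inj _ (by
      have := congrArg (jj h) (QuadraticAlgebra.algebraMap_norm_eq_mul_star x)
      rw [map_mul, e, zero_mul] at this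
      simpa [jj] using this))
  have je : ∀ z, jj h z = map (algebraMap Z A) z.re + 2 ^ k * (map (algebraMap Z A) z.im * C s') :=
    fun z => by simp only [jj, hs, RingHom.coe_mk, MonoidHom.coe_mk, OneHom.coe_mk, map_mul, map_pow,
      map_ofNat]; ring
  have a2 : (2 : A) ≠ 0 := fun e => h2 (by rw [← mul_one 2, ← h1, ← smul_eq_mul, ← map_smul, two_smul,
    one_add_one_eq_two, e, map_zero])
  have n2 : ∀ π, Prime π → π ∣ jj h d → ¬ π ∣ 2 := fun π hπ e e2 =>
    not_dvd hπ (f := map (algebraMap Z A) d.re) ((dvd_add_left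
      ((e2.trans (dvd_pow_self 2 (by omega))).mul_right _)).1 (je d ▸ e)) (n := n) (by rw [coeff_map]; exact u.map _) a2
      (map_ofNat (C (R := A)) 2 ▸ e2)
  have t3 : ∀ y, T (2 ^ k * y) = 2 ^ k * T y := fun y => by rw [← t1, map_pow, map_ofNat]
  have d0 : jj h d ≠ 0 := fun e => h3 (isUnit_of_dvd_unit (by
    have := congrArg T ((je d).symm.trans e)
    rw [map_add, t2, t3, map_zero, add_eq_zero_iff_eq_neg, ← map_ofNat (C (R := Z)) 2, ← map_pow] at this
    rw [this, map_neg, coeff_C_mul]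
    exact ((dvd_pow_self 2 (by omega)).mul_right _).neg_right) u)
  obtain ⟨α, hα⟩ : jj h d ∣ jj h ((∏ y, S.P y) * S.o.W x) := by
    refine (UniqueFactorizationMonoid.dvd_iff_emultiplicity_le d0).2
      fun π hπ => emultiplicity_le_emultiplicity_iff.2 fun m hm => ?_
    rcases m with _ | m
    · simp
    have := Fact.mk hπ
    let := ((algebraMap _ (Lc π)).comp (jj h)).toAlgebra
    exact Lc.pow_dvd π (kq_dvr (R := QuadraticAlgebra Z⟦X⟧ (C a) (C b)) (O := Lc π)
      (map_ofNat (algebraMap A⟦X⟧ (Lc π)) 2 ▸ (Lc.unit π).2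
      (n2 π hπ ((dvd_pow_self π m.succ_ne_zero).trans hm))) (fun x hx => Lc.ne π (reg x hx)) S x hd) _ hm
  rw [je, je, ← eq_sub_iff_add_eq, add_mul, mul_assoc, add_sub_assoc, ← mul_sub] at hα
  have := congrArg T hα
  rw [t2, map_add, t1, mul_comm d.re, t3] at this
  exact ⟨_, _, this⟩

end

theorem kq : KQ := by
  rintro _ _ k hk ⟨a, rfl⟩ ⟨b, rfl⟩ S x d hd h
  obtain ⟨A, _, _, _, _, s, ρ, h1, h2⟩ := ex_ring a b
  obtain ⟨n, hn⟩ : ∃ n, IsUnit (coeff n d.re) := by
    by_contra! k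
    refine h (PowerSeries.ext fun n => ?_)
    rw [coeff_map, map_zero, ← RingHom.mem_ker, PadicInt.ker_toZMod]
    exact k n
  exact wrap (s := 2 ^ k * s) hk (by
    rw [map_mul, map_mul, map_pow, map_pow, map_ofNat, map_ofNat, show (4 : A) = 2 * 2 by norm_num, mul_pow]
    linear_combination (2 ^ k * 2 ^ k) * h2) rfl two_ne_zero PadicInt.prime_p.not_isUnit ρ h1 S x hd hn

end Vale.Agent.P014T.Kq
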