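import Vale.Agent.P004F.Alg.Fit

/-! # P014T, block Kq: the patched Kolyvagin system over `ℚ` (pure algebra) and the row `KQ` -/

set_option linter.all false

open Matrix PowerSeries Submodule Set nonZeroDivisors

noncomputable section

namespace Vale.Agent.P014T.Kq

abbrev M2 (R : Type) : Type := Matrix (Fin 2) (Fin 2) R

abbrev F4 : Type := Fin 2 ⊕ Fin 2

/-- a unit away from `2` -/
def Un {R : Type} [CommRing R] (x : R) : Prop := ∃ c : ℕ, x ∣ 2 ^ c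

/-- one side (`T` or its dual): the data which do not depend on the stage -/
structure Gl (R G σ : Type) [CommRing R] [Group G] where
  ρ : G →* M2 R
  gp : Fin 2 → R
  N : σ → Matrix (Fin 2) F4 R

/-- one side of a stage: the module is `(Fin g → R) ⧸ Rl`; elements are rows, points are columns -/
structure Pk (R G σ ι : Type) where
  g : ℕ
  r : ℕ
  Q : Matrix (Fin r) (Fin g) R
  l : σ → Matrix F4 (Fin g) R
  F : ι → Matrix (Fin 2) (Fin g) R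
  S : ι → Matrix (Fin 2) (Fin g) R
  u : G → Matrix (Fin 2) (Fin g) R

variable {R G σ ι ι' : Type} [CommRing R] [Group G] [Fintype σ] [Fintype ι]

structure Gl.Ok (γ : Gl R G σ) (H : Subgroup G) (τ c : G) : Prop where
  ρH : ∀ h ∈ H, γ.ρ h = 1
  sah : ∃ (z : G) (a : R), γ.ρ z = a • 1 ∧ Un (a - 1) ∧ ∀ g, z * g * z⁻¹ * g⁻¹ ∈ H
  spn : ∀ B, ∃ e : ℕ, (2 : R) ^ e • B ∈ span R (range γ.ρ)
  det : (γ.ρ τ - 1).det = 0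
  tr : Un (γ.ρ τ - 1).trace
  cj : ∃ w, 1 + γ.ρ c = vecMulVec γ.gp w

namespace Pk

variable (γ : Gl R G σ) (τ : G) (p : Pk R G σ ι)

/-- the relations -/
def Rm : Matrix (Fin p.r ⊕ (σ ⊕ ι) × Fin 2) (Fin p.g) R :=
  .of (Sum.elim p.Q fun x => (x.1.elim (fun y => γ.N y * p.l y) fun y => (γ.ρ τ - 1) * p.S y) x.2)

/-- the span of the relations -/
def Rl : Submodule R (Fin p.g → R) := span R (range (p.Rm γ τ))

/-- the values of the universal cocycle on `Z` -/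
def Us (Z : Set G) : Submodule R (Fin p.g → R) :=
  span R {v | ∃ g ∈ Z, ∃ i, v = p.u g i} ⊔ p.Rl γ τ

structure Ok (H : Subgroup G) (c : G) (d : ℕ) : Prop where
  cnt : p.r + 2 * (Fintype.card σ + Fintype.card ι) + d ≤ p.g
  coc : ∀ g h i, (p.u (g * h) - p.u g - γ.ρ g * p.u h) i ∈ p.Rl γ τ
  gen : ∃ e : ℕ, ∀ v, (2 : R) ^ e • v ∈ p.Us γ τ univ
  fr : ∀ i, p.u c i ∈ p.Rl γ τ
  sH : ∀ x i, p.S x i ∈ p.Us γ τ H

/-- `q` has one more prime, whose Frobenius element is `g` -/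
structure Ext (q : Pk R G σ ι') (e : Option ι ≃ ι') (g : G) where
  A : Matrix (Fin q.g) (Fin p.g) R
  ker : ∀ v, v ᵥ* A ∈ p.Rl γ τ ↔ v ∈ q.Rl γ τ ⊔ span R (range (q.S (e none)))
  u : ∀ h i, (q.u h * A - p.u h) i ∈ p.Rl γ τ
  l : ∀ x i, (q.l x * A - p.l x) i ∈ p.Rl γ τ
  F : ∀ x i, (q.F (e (some x)) * A - p.F x) i ∈ p.Rl γ τ
  S : ∀ x i, (q.S (e (some x)) * A - p.S x) i ∈ p.Rl γ τ
  new : ∀ i, (q.F (e none) * A - p.u g) i ∈ p.Rl γ τ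

end Pk

/-- a stage: `X` relaxed, `Y` the dual structure, `κ` the class of the stage, `dg` the coboundary -/
structure Sg (R G σ : Type) where
  ι : Type
  [fι : Fintype ι]
  X : Pk R G σ ι
  Y : Pk R G σ ι
  κ : Fin X.g → R
  dg : Fin X.g → R

attribute [instance] Sg.fι

namespace Sg

variable (γ γ' : Gl R G σ) (τ : G) (p : Sg R G σ)

structure Ok (H : Subgroup G) (c : G) (J : M2 R) (B : σ → Matrix F4 F4 R) : Prop where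
  X : p.X.Ok γ τ H c 2
  Y : p.Y.Ok γ' τ H c 0
  kr : p.X.Rm γ τ *ᵥ p.κ = 0
  dr : p.X.Rm γ τ *ᵥ p.dg = 0
  du : ∀ g, p.X.u g *ᵥ p.dg = (γ.ρ g - 1) *ᵥ γ.gp
  rc : ∃ (w w' : p.ι → R) (η : R) (Z : Matrix (Fin p.X.r ⊕ (σ ⊕ p.ι) × Fin 2) (Fin p.Y.g) R)
    (Z' : Matrix (Fin p.X.g) (Fin p.Y.r ⊕ (σ ⊕ p.ι) × Fin 2) R),
    (∀ x, Un (w x) ∧ Un (w' x)) ∧
    ∑ x, (w x • ((p.X.F x)ᵀ * J * p.Y.S x) + w' x • ((p.X.S x)ᵀ * J * p.Y.F x)) +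
      η • ∑ y, (p.X.l y)ᵀ * B y * p.Y.l y = (p.X.Rm γ τ)ᵀ * Z + Z' * p.Y.Rm γ' τ

structure Ext (q : Sg R G σ) (g : G) where
  e : Option p.ι ≃ q.ι
  X : p.X.Ext γ τ q.X e g
  Y : p.Y.Ext γ' τ q.Y e g
  fs : ∃ y : R, Un y ∧ q.X.S (e none) *ᵥ q.κ = y • ((γ.ρ τ - 1).adjugate *ᵥ (p.X.u g *ᵥ p.κ))

/-- `dg ∧ κ` -/
def W (a : Fin 2 → Fin p.X.g → R) : R :=
  (a 0 ⬝ᵥ p.dg) * (a 1 ⬝ᵥ p.κ) - (a 1 ⬝ᵥ p.dg) * (a 0 ⬝ᵥ p.κ)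

end Sg

/-- **the patched system** -/
structure SyQ (R : Type) [CommRing R] where
  G : Type
  [gG : Group G]
  σ : Type
  [fσ : Fintype σ]
  γ : Gl R G σ
  γ' : Gl R G σ
  H : Subgroup G
  τ : G
  c : G
  J : M2 R
  B : σ → Matrix F4 F4 R
  P : σ → R
  nH : H.Normal
  g1 : γ.Ok H τ c
  g2 : γ'.Ok H τ c
  uJ : Un J.det
  τJ : (γ.ρ τ)ᵀ * J * γ'.ρ τ = J
  P0 : ∀ x, P x ∈ R⁰
  PN : ∀ x, ∃ e : ℕ, 2 ^ e * P x ∈ Ideal.span (range fun D : Matrix F4 (Fin 2) R => (γ.N x * D).det)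
  N0 : ∀ x, ∃ D : Matrix F4 (Fin 2) R, (γ'.N x * D).det ∈ R⁰
  cb : ∀ x, ∃ (Cb : Matrix F4 (Fin 2) R) (D : Matrix (Fin 2) F4 R) (Z : M2 R),
    (D * Cb).det ∈ R⁰ ∧ γ.N x * Cb = 0 ∧ Cbᵀ * B x = Z * γ'.N x
  𝒮 : Set (Sg R G σ)
  ok : ∀ p ∈ 𝒮, p.Ok γ γ' τ H c J B
  ext : ∀ p ∈ 𝒮, ∀ h ∈ H, ∃ q ∈ 𝒮, Nonempty (p.Ext γ γ' τ q (τ * h))
  o : Sg R G σ
  mem : o ∈ 𝒮
  emp : IsEmpty o.ι

attribute [instance] SyQ.gG SyQ.fσ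

/-- the module of the first stage modulo two elements -/
abbrev SyQ.Qt (S : SyQ R) (a : Fin 2 → Fin S.o.X.g → R) : Type :=
  (Fin S.o.X.g → R) ⧸ (S.o.X.Rl S.γ S.τ ⊔ span R (range a))

/-- the coefficient ring `ℤ₂⟦X⟧[s]`, `s² = a + b s` -/
abbrev Rq (a b : ℤ_[2]) : Type := QuadraticAlgebra ℤ_[2]⟦X⟧ (C a) (C b)

/-- **the Kolyvagin bound** -/
def KQ : Prop := ∀ (a b : ℤ_[2]) (k : ℕ), 1 ≤ k → 4 ^ k ∣ a → 2 ^ k ∣ b →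
  ∀ (S : SyQ (Rq a b)) x (d : Rq a b),
  P004F.Alg.Pr (S.Qt x) d → PowerSeries.map PadicInt.toZMod d.re ≠ 0 →
  ∃ α β : ℤ_[2]⟦X⟧, ((∏ y, S.P y) * S.o.W x).re = α * d.re + 2 ^ k * β

end Vale.Agent.P014T.Kq
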