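import Vale.Agent.P014T.Kq.Lin

/-! The Kolyvagin chain over a discrete valuation ring. -/

namespace Vale.Agent.P014T.Kq
open Matrix Submodule Set Function Module IsLocalRing P004F.Alg P004F.Ch

/-- one side of a stage -/
structure Hf (O G ι : Type) [CommRing O] where
  X : Type
  [a : AddCommGroup X]
  [m : Module O X]
  u : G → Fin 2 → X
  f : ι → X
  s : ι → X

attribute [instance] Hf.a Hf.m

variable {O G ι ι' : Type} [CommRing O] [Group G] [Fintype ι]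

structure Hf.Ok (p : Hf O G ι) (A : G → M2 O) (H : Subgroup G) (c : G) (d : ℕ) : Prop where
  fin : Module.Finite O p.X
  co : Co A p.u
  gen : Y O ⊤ p.u = ⊤
  fr : p.u c = 0
  sH : ∀ x, p.s x ∈ Y O H p.u
  rk : Fintype.card ι + d ≤ finrank O p.X

structure Hf.Ex (p : Hf O G ι) (q : Hf O G ι') (e : Option ι ≃ ι') (y : p.X) (π : q.X →ₗ[O] p.X) :
    Prop where
  ker : LinearMap.ker π = span O {q.s (e none)}
  u : ∀ g i, π (q.u g i) = p.u g i
  f : ∀ x, π (q.f (e (some x))) = p.f x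
  s : ∀ x, π (q.s (e (some x))) = p.s x
  new : π (q.f (e none)) = y

section
variable {p : Hf O G ι} {q : Hf O G ι'} {e : Option ι ≃ ι'} {y : p.X} {π : q.X →ₗ[O] p.X}
  {A : G → M2 O} {H : Subgroup G} {τ c : G} {gp lam : Fin 2 → O} {d : ℕ}

theorem Hf.Ex.surj (h : p.Ex q e y π) (o : p.Ok A H c d) : Surjective π :=
  LinearMap.range_eq_top.1 (top_unique (o.gen ▸ Y_le.2 fun g _ i => ⟨_, h.u g i⟩))

theorem Hf.Ok.dec (o : p.Ok A H c d) (S : Sd A H τ c gp lam) : ∃ ω, Y O H p.u ⊔ span O {ω} = ⊤ ∧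
    ∀ dg : p.X →ₗ[O] O, (∀ g i, dg (p.u g i) = ((A g - 1) *ᵥ gp) i) →
      ∀ v, v - dg v • ω ∈ Y O H p.u := by
  obtain ⟨ω, h⟩ := S.om o.co o.fr
  refine ⟨ω, top_unique (o.gen ▸ Y_le.2 fun g _ i => ?_), fun dg k v => ?_⟩
  · exact sub_add_cancel (p.u g i) _ ▸ add_mem_sup (h g i) (mem_span_singleton.2 ⟨_, rfl⟩)
  · exact (Y_le (N := (Y O H p.u).comap (LinearMap.id - dg.smulRight ω))).2
      (fun g _ i => by simpa [k] using h g i) (o.gen ▸ mem_top : v ∈ Y O ⊤ p.u)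

variable [IsLocalRing O]

/-- the local coordinates of a residual point -/
noncomputable def Hf.lc (p : Hf O G ι) : (p.X →ₗ[O] ResidueField O) →ₗ[ResidueField O]
    (ι → ResidueField O) × (ι → ResidueField O) where
  toFun x := (fun l => x (p.f l), fun l => x (p.s l))
  map_add' _ _ := rfl
  map_smul' _ _ := rfl

omit [Group G] [Fintype ι] in
theorem Hf.mem_lc {x} : x ∈ LinearMap.ker p.lc ↔ ∀ l, x (p.f l) = 0 ∧ x (p.s l) = 0 :=
  ⟨fun h l => ⟨congrFun (congrArg Prod.fst h) l, congrFun (congrArg Prod.snd h) l⟩,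
    fun h => Prod.ext (funext fun l => (h l).1) (funext fun l => (h l).2)⟩

/-- evaluation -/
noncomputable def ev {X : Type} [AddCommGroup X] [Module O X] (y : X) :
    (X →ₗ[O] ResidueField O) →ₗ[ResidueField O] ResidueField O where
  toFun x := x y
  map_add' _ _ := rfl
  map_smul' _ _ := rfl

theorem Hf.Ex.rk (h : p.Ex q e y π) (o : p.Ok A H c d) :
    finrank (ResidueField O) (LinearMap.ker q.lc) ≤
      finrank (ResidueField O) ↥(LinearMap.ker p.lc ⊓ LinearMap.ker (ev y)) := by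
  have := o.fin
  have := fin_k (O := O) (X := p.X)
  let φ : (p.X →ₗ[O] ResidueField O) →ₗ[ResidueField O] (q.X →ₗ[O] ResidueField O) :=
    ⟨⟨fun x => x ∘ₗ π, fun _ _ => rfl⟩, fun _ _ => rfl⟩
  refine le_trans (Submodule.finrank_mono (fun x hx => ?_ : _ ≤ map φ _)) (finrank_map_le ..)
  rw [Hf.mem_lc] at hx
  obtain ⟨x, rfl⟩ : ∃ x', φ x' = x := by
    let E := π.quotKerEquivOfSurjective (h.surj o)
    refine ⟨(LinearMap.ker π).liftQ x (h.ker ▸ span_le.2 ?_) ∘ₗ E.symm.toLinearMap,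
      LinearMap.ext fun v => ?_⟩
    · rintro _ rfl; exact (hx _).2
    · have : E.symm (π v) = mkQ _ v := E.symm_apply_eq.2 rfl
      simp [φ, this]
  exact ⟨x, ⟨Hf.mem_lc.2 fun l => ⟨h.f l ▸ (hx _).1, h.s l ▸ (hx _).2⟩,
    show x y = 0 from h.new ▸ (hx _).1⟩, rfl⟩

theorem Hf.Ex.le (h : p.Ex q e y π) (o : p.Ok A H c d) :
    finrank (ResidueField O) (LinearMap.ker q.lc) ≤ finrank (ResidueField O) (LinearMap.ker p.lc) := by
  have := o.fin
  have := fin_k (O := O) (X := p.X)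
  exact (h.rk o).trans (Submodule.finrank_mono inf_le_left)

theorem Hf.Ex.lt (h : p.Ex q e y π) (o : p.Ok A H c d) {x} (hx : x ∈ LinearMap.ker p.lc) (n : x y ≠ 0) :
    finrank (ResidueField O) (LinearMap.ker q.lc) < finrank (ResidueField O) (LinearMap.ker p.lc) := by
  have := o.fin
  have := fin_k (O := O) (X := p.X)
  exact (h.rk o).trans_lt (finrank_lt_finrank_of_lt (inf_le_left.lt_of_ne fun k =>
    n (k.symm ▸ hx : x ∈ _ ⊓ LinearMap.ker (ev y)).2))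

theorem Hf.Ok.one (o : p.Ok A H c d) (S : Sd A H τ c gp lam)
    (h : ∀ x ∈ LinearMap.ker p.lc, ∀ g ∈ H, x (lv lam (p.u g)) = 0) :
    finrank (ResidueField O) (p.X →ₗ[O] ResidueField O) ≤
      finrank (ResidueField O) (LinearMap.range p.lc) + 1 := by
  have := o.fin
  have := fin_k (O := O) (X := p.X)
  obtain ⟨ω, k, -⟩ := o.dec S
  rw [← p.lc.finrank_range_add_finrank_ker]
  refine Nat.add_le_add_left (le_trans (LinearMap.finrank_le_finrank_of_injective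
    (f := ev ω ∘ₗ (LinearMap.ker p.lc).subtype) ((injective_iff_map_eq_zero _).2 fun x e =>
      Subtype.ext (LinearMap.ker_eq_top.1 (top_unique (k ▸ sup_le (S.le o.co (h x x.2)) ?_))))) (by simp)) _
  exact span_le.2 (by rintro _ rfl; exact e)

end

/-- a stage -/
structure St (O G : Type) [CommRing O] where
  ι : Type
  [fι : Fintype ι]
  X : Hf O G ι
  Y : Hf O G ι
  κ : X.X →ₗ[O] O
  dg : X.X →ₗ[O] O

attribute [instance] St.fι

variable [IsDomain O] [IsDiscreteValuationRing O] {A A' : G → M2 O} {H : Subgroup G} {τ c : G}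
  {gp gp' lam lam' : Fin 2 → O}

variable (A A' H c gp) in
structure St.Ok (p : St O G) : Prop where
  X : p.X.Ok A H c 2
  Y : p.Y.Ok A' H c 0
  du : ∀ g i, p.dg (p.X.u g i) = ((A g - 1) *ᵥ gp) i
  rc : ∃ w w' : p.ι → ResidueField O, (∀ l, w l ≠ 0) ∧ (∀ l, w' l ≠ 0) ∧ ∀ x y,
    (w * (p.X.lc x).1) ⬝ᵥ (p.Y.lc y).2 + (w' * (p.X.lc x).2) ⬝ᵥ (p.Y.lc y).1 = 0

variable (lam lam') in
def St.Ex (p q : St O G) (g : G) : Prop := ∃ e π π', p.X.Ex q.X e (lv lam (p.X.u g)) π ∧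
  p.Y.Ex q.Y e (lv lam' (p.Y.u g)) π' ∧ Associated (q.κ (q.X.s (e none))) (p.κ (lv lam (p.X.u g)))

/-- the statement which is proved by induction -/
def St.Bd (p : St O G) : Prop := ∀ (I : Type) [Fintype I] [DecidableEq I] (a : I → p.X.X)
  (y : I → p.X.X →ₗ[O] O) (i j : I), Fintype.card I = Fintype.card p.ι + 2 → i ≠ j → y i = p.dg →
  y j = p.κ → ∃ δ, Dt (p.X.X ⧸ span O (range a)) δ ∧ δ ∣ (of fun r c => y c (a r)).det

variable (S : Sd A H τ c gp lam) (S' : Sd A' H τ c gp' lam') {p q : St O G} (o : p.Ok A A' H c gp)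
include S S' o

theorem St.Ok.last (h : ∀ x ∈ LinearMap.ker p.X.lc, ∀ g ∈ H, x (lv lam (p.X.u g)) = 0)
    (h' : ∀ x ∈ LinearMap.ker p.Y.lc, ∀ g ∈ H, x (lv lam' (p.Y.u g)) = 0) : p.Bd := by
  intro I _ _ a y i j hc _ _ _
  have := o.X.fin
  have := o.Y.fin
  obtain ⟨w, w', h1, h2, h3⟩ := o.rc
  have k1 := orth h1 h2 (LinearMap.range p.X.lc) (LinearMap.range p.Y.lc) (by
    rintro _ ⟨x, rfl⟩ _ ⟨y, rfl⟩; exact h3 x y)
  have k2 := o.X.one S h
  have k3 := o.Y.one S' h'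
  have k4 := o.Y.rk.trans rk_le
  obtain ⟨b⟩ := ex_bas (I := I) (hc ▸ o.X.rk) (by omega)
  refine ⟨_, (pr_free b a).dt, (of fun r c => y c (b r)).det, ?_⟩
  rw [Basis.det_apply, ← det_transpose (b.toMatrix a), ← det_mul]
  congr 1; ext r c
  conv_lhs => rw [of_apply, ← b.sum_repr (a r), map_sum]
  simp [mul_apply, Basis.toMatrix_apply]

omit S' in
theorem St.Ok.div {ϖ : O} (hϖ : Irreducible ϖ) : (∃ x : O, p.κ = x • p.dg) ∨
    ∃ (x t : O) (κ' : p.X.X →ₗ[O] O), p.κ = t • κ' + x • p.dg ∧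
      (∃ g ∈ H, ¬ t * ϖ ∣ p.κ (lv lam (p.X.u g))) ∧
      ∀ g ∈ H, ¬ t * ϖ ∣ p.κ (lv lam (p.X.u (τ * g))) → Associated (p.κ (lv lam (p.X.u (τ * g)))) t := by
  obtain ⟨ω, -, k⟩ := o.X.dec S
  obtain ⟨t, ht⟩ := (IsPrincipalIdealRing.principal ((P004F.Ch.Y O H p.X.u).map p.κ)).principal
  have d : ∀ v ∈ P004F.Ch.Y O H p.X.u, t ∣ p.κ v := fun v hv =>
    Ideal.mem_span_singleton.1 (show _ ∈ span O {t} from ht ▸ mem_map_of_mem hv)
  have d' : ∀ v, t ∣ (p.κ - p.κ ω • p.dg) v := fun v => by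
    simpa [mul_comm] using d _ (k _ o.du v)
  by_cases h0 : t = 0
  · exact .inl ⟨_, sub_eq_zero.1 (LinearMap.ext fun v => zero_dvd_iff.1 (h0 ▸ d' v))⟩
  obtain ⟨κ', e⟩ := ex_div _ h0 d'
  refine .inr ⟨_, t, κ', eq_add_of_sub_eq e, ?_, fun g hg n => ?_⟩
  · by_contra! n
    obtain ⟨v, hv, e⟩ : t ∈ map p.κ _ := ht ▸ mem_span_singleton_self t
    have := Ideal.mem_span_singleton.1 (S.le o.X.co (N := Submodule.comap p.κ (Ideal.span {t * ϖ}))
      (fun g hg => Ideal.mem_span_singleton.2 (n g hg)) hv)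
    rw [e] at this
    exact hϖ.not_isUnit (isUnit_of_dvd_one ((mul_dvd_mul_iff_left h0).1 (by simpa using this)))
  · obtain ⟨z, hz⟩ := d _ (S.mem o.X.co o.X.fr hg)
    rw [hz] at n ⊢
    refine associated_mul_unit_left _ _ (by_contra fun k => n (mul_dvd_mul_left t ?_))
    rwa [← mem_nonunits_iff, ← mem_maximalIdeal, hϖ.maximalIdeal_eq, Ideal.mem_span_singleton] at k

omit S S' in
theorem St.Ok.step (o' : q.Ok A A' H c gp) {g : G} (E : p.Ex lam lam' q g) {x t : O}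
    {κ' : p.X.X →ₗ[O] O} (e : p.κ = t • κ' + x • p.dg) (k : Associated (p.κ (lv lam (p.X.u g))) t)
    (h : q.Bd) : p.Bd := by
  intro I _ _ a y i j hc ij hi hj
  obtain ⟨ε, π, -, E, -, k'⟩ := E
  choose a' ha using fun r => E.surj o.X (a r)
  have z : π (q.X.s (ε none)) = 0 := (E.ker ▸ mem_span_singleton_self _ : _ ∈ LinearMap.ker π)
  obtain ⟨δ, d1, d2⟩ := h (Unit ⊕ I) (Sum.elim (fun _ => q.X.s (ε none)) a')
    (Sum.elim (fun _ => q.κ) fun c => update y j κ' c ∘ₗ π) (.inr i) (.inl ())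
    (by simp [hc, ← Fintype.card_congr ε]; ring) (by simp) (by
      rw [Sum.elim_inr, update_of_ne ij, hi, ← sub_eq_zero, ← LinearMap.ker_eq_top, eq_top_iff,
        ← o'.X.gen]
      exact Y_le.2 fun g _ i => by simp [E.u, o.du, o'.du]) rfl
  refine ⟨δ, d1.lift (mkQ _ ∘ₗ π) ((mkQ_surjective _).comp (E.surj o.X)) (span_le.2 ?_), ?_⟩
  · rintro _ ⟨r | r, rfl⟩
    · simp [z]
    · exact (Quotient.mk_eq_zero _).2 (subset_span ⟨r, (ha r).symm⟩)
  set M : Matrix I I O := of fun r c => y c (a r)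
  have e1 : (of fun r c => Sum.elim (fun _ => q.κ) (fun c => update y j κ' c ∘ₗ π) c
      (Sum.elim (fun _ => q.X.s (ε none)) a' r)) = fromBlocks (of fun _ _ : Unit => q.κ (q.X.s (ε none)))
      0 (of fun r _ => q.κ (a' r)) (M.updateCol j fun r => κ' (a r)) := by
    ext (r | r) (c | c) <;> simp [z, ha, M, updateCol_apply]
    by_cases h : c = j <;> simp [h]
  have e2 : M.det = t * (M.updateCol j fun r => κ' (a r)).det := by
    have : M = M.updateCol j (t • (fun r => κ' (a r)) + x • fun r => M r i) := by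
      conv_lhs => rw [← updateCol_eq_self M j]
      congr 1; ext r; simp [M, hi, hj, e]
    rw [this, det_updateCol_add, det_updateCol_smul, det_updateCol_smul, ← this,
      det_updateCol_eq_zero ij, mul_zero, add_zero]
  rw [e1, det_fromBlocks_zero₁₂, det_unique, of_apply] at d2
  exact e2 ▸ d2.trans (mul_dvd_mul_right (k'.trans k).dvd _)

omit o in
theorem core {𝒮 : Set (St O G)} (ok : ∀ p ∈ 𝒮, p.Ok A A' H c gp)
    (ext : ∀ p ∈ 𝒮, ∀ h ∈ H, ∃ q ∈ 𝒮, p.Ex lam lam' q (τ * h)) (hp : p ∈ 𝒮) : p.Bd := by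
  obtain ⟨ϖ, hϖ⟩ := IsDiscreteValuationRing.exists_irreducible O
  induction hn : finrank (ResidueField O) (LinearMap.ker p.X.lc) +
    finrank (ResidueField O) (LinearMap.ker p.Y.lc) using Nat.strong_induction_on generalizing p with
  | _ n ih =>
  have o := ok p hp
  rcases o.div S hϖ with ⟨x, e⟩ | ⟨x, t, κ', e, k1, k2⟩
  · intro I _ _ a y i j _ ij hi hj
    have := o.X.fin
    refine ⟨0, dt0, zero_dvd_iff.2 ?_⟩
    set M : Matrix I I O := of fun r c => y c (a r)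
    have : M = M.updateCol j (x • fun r => M r i) := by
      conv_lhs => rw [← updateCol_eq_self M j]
      congr 1; ext r; simp [M, hi, hj, e]
    rw [this, det_updateCol_smul, det_updateCol_eq_zero ij, mul_zero]
  have P : ∀ {M : Type} [AddCommGroup M] [Module O M] (a : G → M) (b : M),
      (∀ g ∈ H, ∀ h ∈ H, a (g * h) = a g + a h) → (∃ g ∈ H, a g ≠ 0) → ∃ h ∈ H, b + a h ≠ 0 ∧
      Associated (p.κ (lv lam (p.X.u (τ * h)))) t := fun a b h1 h2 => by
    let φ := (Ideal.span {t * ϖ}).mkQ ∘ₗ p.κ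
    have hφ : ∀ v, φ v = 0 ↔ t * ϖ ∣ p.κ v := fun v =>
      (Quotient.mk_eq_zero _).trans Ideal.mem_span_singleton
    obtain ⟨h, m, e1, e2⟩ := pick S.two a (fun g => φ (lv lam (p.X.u g))) b (φ (lv lam (p.X.u τ))) h1
      (fun g m h m' => by rw [(o.X.co.ad S.cb).add g m h m', map_add, map_add]) h2
      (k1.imp fun g n => ⟨n.1, mt (hφ _).1 n.2⟩)
    exact ⟨h, m, e1, k2 h m (mt (hφ _).2 (by rwa [S.tau o.X.co, map_add]))⟩
  by_cases c1 : ∀ x ∈ LinearMap.ker p.X.lc, ∀ g ∈ H, x (lv lam (p.X.u g)) = 0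
  · by_cases c2 : ∀ x ∈ LinearMap.ker p.Y.lc, ∀ g ∈ H, x (lv lam' (p.Y.u g)) = 0
    · exact o.last S S' c1 c2
    push Not at c2
    obtain ⟨z, hz, c2⟩ := c2
    obtain ⟨h, m, e1, e2⟩ := P (fun g => z (lv lam' (p.Y.u g))) (z (lv lam' (p.Y.u τ)))
      (fun g m h m' => by rw [(o.Y.co.ad S'.cb).add g m h m', map_add, map_add]) c2
    obtain ⟨q, hq, E⟩ := ext p hp h m
    refine o.step (ok q hq) E e e2 (ih _ ?_ hq rfl)
    obtain ⟨ε, π, π', E, E', -⟩ := E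
    exact hn ▸ add_lt_add_of_le_of_lt (E.le o.X) (E'.lt o.Y hz (by rwa [S'.tau o.Y.co, map_add]))
  · push Not at c1
    obtain ⟨z, hz, c1⟩ := c1
    obtain ⟨h, m, e1, e2⟩ := P (fun g => z (lv lam (p.X.u g))) (z (lv lam (p.X.u τ)))
      (fun g m h m' => by rw [(o.X.co.ad S.cb).add g m h m', map_add, map_add]) c1
    obtain ⟨q, hq, E⟩ := ext p hp h m
    refine o.step (ok q hq) E e e2 (ih _ ?_ hq rfl)
    obtain ⟨ε, π, π', E, E', -⟩ := E
    exact hn ▸ add_lt_add_of_lt_of_le (E.lt o.X hz (by rwa [S.tau o.X.co, map_add])) (E'.le o.Y)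

end Vale.Agent.P014T.Kq
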