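import Vale.Agent.P004F.Kg.Kg

/-! The exact form of the main conjecture over the imaginary quadratic frame. -/

namespace Vale.Agent.P014T.Kq
open PowerSeries Vale.Agent.P004F Alg

theorem asc {R k : Type} [CommRing R] [IsDomain R] [IsPrincipalIdealRing R] [IsLocalRing R] [Field k]
    (φ : R →+* k) (hφ : ∀ x, φ x ≠ 0 → IsUnit x) {D Θ : R⟦X⟧} (hD : map φ D ≠ 0)
    (h : ∀ (π : R⟦X⟧) [Fact (Prime π)], map φ π ≠ 0 → ¬ π ∣ X →
      algebraMap _ (Lc π) D ∣ algebraMap _ (Lc π) Θ ^ 2) {l : ℕ} (h1 : ¬ X ^ (l + 1) ∣ map φ Θ)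
    (h2 : X ^ (2 * l) ∣ map φ D) (h0 : constantCoeff D ≠ 0) : Associated D (Θ ^ 2) := by
  have h3 : map φ Θ ≠ 0 := fun e => h1 (by simp [e])
  obtain ⟨c, hc⟩ : D ∣ Θ ^ 2 := by
    refine (UniqueFactorizationMonoid.dvd_iff_emultiplicity_le (fun e => hD (by simp [e]))).2
      fun π hπ => emultiplicity_le_emultiplicity_iff.2 fun n hn => ?_
    rcases n with _ | n
    · simp
    have a1 : π ∣ D := (dvd_pow_self π n.succ_ne_zero).trans hn
    have := Fact.mk hπ
    refine Lc.pow_dvd π (map_pow (algebraMap _ (Lc π)) Θ 2 ▸ h π (fun e => hD ?_) fun e =>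
      h0 (X_dvd_iff.1 ((hπ.associated_of_dvd X_prime e).dvd'.trans a1))) _ hn
    obtain ⟨c, hc⟩ := a1
    simp [hc, e]
  have o := congrArg (fun z => (map φ z).order) hc
  simp only [map_mul, map_pow, order_mul, order_pow, nsmul_eq_mul, Nat.cast_ofNat] at o
  rw [X_pow_dvd, not_le] at h1
  rw [X_pow_dvd] at h2
  have f : (map φ D).order ≠ ⊤ := by rwa [Ne, order_eq_top]
  have k : (map φ D).order + (map φ c).order ≤ (map φ D).order + 0 := by
    rw [← o, add_zero]
    refine le_trans ?_ h2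
    push_cast at h1 ⊢; gcongr; exact Order.le_of_lt_add_one h1
  have k' : (map φ c).order = 0 := le_antisymm ((ENat.add_le_add_iff_left f).1 k) zero_le
  have u : IsUnit c := isUnit_iff_constantCoeff.2 (hφ _ fun e => by
    have := (one_le_order_iff_constCoeff_eq_zero (φ := map φ c)).2 (by rwa [← coeff_zero_eq_constantCoeff_apply, coeff_map, coeff_zero_eq_constantCoeff_apply])
    simp [k'] at this)
  exact ⟨u.unit, hc.symm⟩

/-- in rank one the determinant is the square of the theta element up to a unit -/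
theorem kg_eq (S : Sys) (R : S.Rk1) : Associated (S.o.Mx S.γ).det ((S.o.t ⬝ᵥ S.o.κ ∅) ^ 2) :=
  asc PadicInt.toZMod (fun x h => by
    rwa [Ne, ← RingHom.mem_ker, PadicInt.ker_toZMod, IsLocalRing.notMem_maximalIdeal] at h)
    S.mu (fun π hπ h h' => Kg.dv S π (by
    refine map_ofNat (C (R := ℤ_[2])) 2 ▸ ndvd PadicInt.toZMod two_ne_zero (fun x => ?_) hπ.1 h
    rw [← RingHom.mem_ker, PadicInt.ker_toZMod, PadicInt.maximalIdeal_eq_span_p, Ideal.mem_span_singleton]
    rfl) h') S.an S.la (Kg.d0 S X (hπ := ⟨X_prime⟩)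
      (by simp [X_dvd_iff, map_ofNat]) (fun _ => X_dvd_iff) R)

end Vale.Agent.P014T.Kq
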