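import Vale.Agent.P014T.Kq.Sy
import Vale.Agent.P004F.Alg.Lat
import Vale.Agent.P004F.Ch.Abs

/-! Linear algebra for the Kolyvagin bound over `ℚ`. -/

namespace Vale.Agent.P014T.Kq
open Matrix Submodule Set Function Module IsLocalRing P004F.Alg P004F.Ch TensorProduct

section grp
variable {O G M : Type} [CommRing O] [Group G] [AddCommGroup M] [Module O M]

/-- a row applied to a pair -/
def lv (m : Fin 2 → O) : (Fin 2 → M) →ₗ[O] M := ∑ i, m i • LinearMap.proj i

theorem lv_eq (m : Fin 2 → O) (x : Fin 2 → M) : lv m x = m 0 • x 0 + m 1 • x 1 := by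
  simp [lv, Fin.sum_univ_two]

structure Sd (A : G → M2 O) (H : Subgroup G) (τ c : G) (gp lam : Fin 2 → O) : Prop where
  cb : Cb0 A H (MonoidHom.id G)
  sah : ∃ (z : G) (a : O), A z = a • 1 ∧ IsUnit (a - 1) ∧ ∀ g, z * g * z⁻¹ * g⁻¹ ∈ H
  cj : ∃ w, 1 + A c = vecMulVec gp w
  lt : lam ᵥ* A τ = lam
  un : ∃ m, lam ⬝ᵥ m = 1
  two : IsUnit (2 : O)

variable {A : G → M2 O} {H : Subgroup G} {τ c : G} {gp lam : Fin 2 → O} (d : Sd A H τ c gp lam)
  {u : G → Fin 2 → M} (co : Co A u)
include d co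

theorem Sd.om (fr : u c = 0) : ∃ ω, ∀ g i, u g i - ((A g - 1) *ᵥ gp) i • ω ∈ Y O H u := by
  obtain ⟨z, a, h1, h2, h3⟩ := d.sah
  obtain ⟨m, hm⟩ := P004F.Ch.sah co d.cb h1 h2 h3
  obtain ⟨w, hw⟩ := d.cj
  obtain ⟨t, ht⟩ := d.two.exists_left_inv
  have k : ∀ i, m i - gp i • t • lv w m ∈ Y O H u := fun i => by
    have e : ∀ j, A c i j = gp i * w j - (1 : M2 O) i j := fun j => by
      have := congrFun (congrFun hw i) j
      rw [Matrix.add_apply, vecMulVec_apply] at this
      rw [← this]; ring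
    have e' : m i = t • (2 : O) • m i := by rw [← mul_smul, ht, one_smul]
    have : m i - gp i • t • lv w m = t • (u c i - (∑ j, A c i j • m j - m i)) := by
      conv_lhs => rw [e']
      rw [fr, lv_eq, Fin.sum_univ_two, e, e]
      fin_cases i <;> simp [one_apply] <;> module
    exact this ▸ smul_mem _ _ (hm c i)
  refine ⟨t • lv w m, fun g i => ?_⟩
  have : u g i - ((A g - 1) *ᵥ gp) i • t • lv w m = (u g i - (∑ j, A g i j • m j - m i)) +
      ∑ j, (A g - 1) i j • (m j - gp j • t • lv w m) := by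
    fin_cases i <;> simp [mulVec, dotProduct, Fin.sum_univ_two] <;> module
  exact this ▸ add_mem (hm g i) (sum_mem fun j _ => smul_mem _ _ (k j))

theorem Sd.le {N : Submodule O M} (h : ∀ g ∈ H, lv lam (u g) ∈ N) : Y O H u ≤ N :=
  Y_le.2 fun g hg j => by
    obtain ⟨m, hm⟩ := d.un
    have k : ∀ i, lam i • u g j ∈ N := fun i => by
      have := (co.ad d.cb).sing d.cb (N.mkQ ∘ₗ lv lam)
        (fun g hg => (Quotient.mk_eq_zero N).2 (h g hg)) hg i j
      rw [LinearMap.comp_apply, mkQ_apply, Quotient.mk_eq_zero, lv_eq] at this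
      fin_cases i <;> simpa using this
    have : u g j = m 0 • lam 0 • u g j + m 1 • lam 1 • u g j := by
      rw [← mul_smul, ← mul_smul, ← add_smul, show m 0 * lam 0 + m 1 * lam 1 = 1 by
        rw [← hm]; simp [dotProduct, Fin.sum_univ_two, mul_comm], one_smul]
    exact this ▸ add_mem (smul_mem _ _ (k 0)) (smul_mem _ _ (k 1))

theorem Sd.tau (g : G) : lv lam (u (τ * g)) = lv lam (u τ) + lv lam (u g) := by
  have e0 := congrFun d.lt 0
  have e1 := congrFun d.lt 1
  simp only [vecMul, dotProduct, Fin.sum_univ_two] at e0 e1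
  rw [co, map_add]
  simp only [lv_eq, Fin.sum_univ_two]
  linear_combination (norm := module) e0 • u g 0 + e1 • u g 1

theorem Sd.mem (fr : u c = 0) {g : G} (hg : g ∈ H) : lv lam (u (τ * g)) ∈ Y O H u := by
  obtain ⟨ω, h⟩ := d.om co fr
  have e : lam ⬝ᵥ ((A τ - 1) *ᵥ gp) = 0 := by rw [dotProduct_mulVec, vecMul_sub, d.lt]; simp
  rw [d.tau co, lv_eq, lv_eq]
  refine add_mem ?_ (add_mem (smul_mem _ _ (mem_Y u hg 0)) (smul_mem _ _ (mem_Y u hg 1)))
  have : lam 0 • u τ 0 + lam 1 • u τ 1 = lam 0 • (u τ 0 - ((A τ - 1) *ᵥ gp) 0 • ω) +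
      lam 1 • (u τ 1 - ((A τ - 1) *ᵥ gp) 1 • ω) + (lam ⬝ᵥ ((A τ - 1) *ᵥ gp)) • ω := by
    simp only [dotProduct, Fin.sum_univ_two]; module
  rw [this, e, zero_smul, add_zero]
  exact add_mem (smul_mem _ _ (h τ 0)) (smul_mem _ _ (h τ 1))

end grp

/-- two affine conditions on a group -/
theorem pick {O G M M' : Type} [CommRing O] [Group G] [AddCommGroup M] [Module O M] [AddCommGroup M']
    [Module O M'] (h2 : IsUnit (2 : O)) {H : Subgroup G} (a : G → M) (a' : G → M') (b : M) (b' : M')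
    (ha : ∀ g ∈ H, ∀ h ∈ H, a (g * h) = a g + a h) (ha' : ∀ g ∈ H, ∀ h ∈ H, a' (g * h) = a' g + a' h)
    (n : ∃ h ∈ H, a h ≠ 0) (n' : ∃ h ∈ H, a' h ≠ 0) : ∃ h ∈ H, b + a h ≠ 0 ∧ b' + a' h ≠ 0 := by
  obtain ⟨h, m, e, e'⟩ : ∃ h ∈ H, a h ≠ 0 ∧ a' h ≠ 0 := by
    obtain ⟨g, m, e⟩ := n
    obtain ⟨h, m', e'⟩ := n'
    by_cases k : a' g = 0
    · by_cases k' : a h = 0
      · exact ⟨g * h, H.mul_mem m m', by simpa [ha g m h m', k'], by simpa [ha' g m h m', k]⟩
      · exact ⟨h, m', k', e'⟩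
    · exact ⟨g, m, e, k⟩
  have z : a 1 = 0 := by simpa using ha 1 H.one_mem 1 H.one_mem
  have z' : a' 1 = 0 := by simpa using ha' 1 H.one_mem 1 H.one_mem
  have t : a h + a h ≠ 0 := fun k => e (h2.smul_eq_zero.1 (by rwa [two_smul]))
  have t' : a' h + a' h ≠ 0 := fun k => e' (h2.smul_eq_zero.1 (by rwa [two_smul]))
  by_contra hc
  push Not at hc
  have c0 := hc 1 H.one_mem
  have c1 := hc h m
  have c2 := hc _ (H.mul_mem m m)
  rw [z, z', add_zero, add_zero] at c0
  rw [ha h m h m, ha' h m h m] at c2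
  by_cases k : b = 0
  · rw [k, zero_add] at c1 c2
    rw [← add_assoc, c1 e, zero_add] at c2
    exact e' (c2 t)
  · rw [c0 k, zero_add] at c1 c2
    exact e (by
      have := by_contra fun x => e' (c1 x)
      have k2 := by_contra fun x => t' (c2 x)
      rwa [← add_assoc, this, zero_add] at k2)

theorem orth {k J : Type} [Field k] [Fintype J] {w w' : J → k} (hw : ∀ j, w j ≠ 0) (hw' : ∀ j, w' j ≠ 0)
    (U U' : Submodule k ((J → k) × (J → k)))
    (h : ∀ a ∈ U, ∀ b ∈ U', (w * a.1) ⬝ᵥ b.2 + (w' * a.2) ⬝ᵥ b.1 = 0) :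
    finrank k U + finrank k U' ≤ 2 * Fintype.card J := by
  classical
  let B : LinearMap.BilinForm k ((J → k) × (J → k)) := LinearMap.mk₂ k
    (fun a b => (w * a.1) ⬝ᵥ b.2 + (w' * a.2) ⬝ᵥ b.1) (by intros; simp [mul_add]; ring)
    (by intros; simp; ring) (by intros; simp; ring) (by intros; simp; ring)
  have h0 : B.ker = ⊥ := eq_bot_iff.2 fun z hz => by
    have h : ∀ y, B z y = 0 := fun y => by rw [LinearMap.mem_ker.1 hz]; rfl
    ext j
    · simpa [B, hw] using h (0, Pi.single j 1)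
    · simpa [B, hw'] using h (Pi.single j 1, 0)
  have h1 := B.finrank_add_finrank_orthogonal' U
  rw [h0, inf_bot_eq, finrank_bot] at h1
  simp only [finrank_prod, finrank_fintype_fun_eq_card] at h1
  have h3 : U' ≤ B.orthogonal U := fun z hz y hy => h y hy z hz
  have h2 := Submodule.finrank_mono h3
  omega

section dvr
variable {O X : Type} [CommRing O] [IsDomain O] [AddCommGroup X] [Module O X]

omit [IsDomain O] in
theorem dt0 [Module.Finite O X] : Dt X (0 : O) := by
  obtain ⟨n, y, hy⟩ := Module.Finite.exists_fin (R := O) (M := X)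
  refine ⟨Option (Fin n), inferInstance, inferInstance, fun o => o.elim 0 y, 0,
    top_unique (hy ▸ span_mono ?_), by simp, det_zero⟩
  rintro _ ⟨i, rfl⟩
  exact ⟨some i, rfl⟩

theorem ex_div (κ : X →ₗ[O] O) {c : O} (hc : c ≠ 0) (h : ∀ x, c ∣ κ x) : ∃ κ' : X →ₗ[O] O, κ = c • κ' := by
  choose f hf using h
  exact ⟨⟨⟨f, fun x y => mul_left_cancel₀ hc (by rw [← hf, map_add, mul_add, ← hf, ← hf])⟩,
    fun a x => mul_left_cancel₀ hc (by
      rw [← hf, map_smul, hf x, RingHom.id_apply, smul_eq_mul, smul_eq_mul]; ring)⟩,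
    LinearMap.ext hf⟩

variable [IsLocalRing O] [Module.Finite O X]

omit [IsDomain O] in
theorem fin_k : Module.Finite (ResidueField O) (X →ₗ[O] ResidueField O) :=
  .equiv (LinearMap.liftBaseChangeEquiv (ResidueField O)).symm

omit [IsDomain O] in
theorem gens : ∃ y : Fin (finrank (ResidueField O) (X →ₗ[O] ResidueField O)) → X,
    span O (range y) = ⊤ := by
  have e : finrank (ResidueField O) (ResidueField O ⊗[O] X) =
      finrank (ResidueField O) (X →ₗ[O] ResidueField O) :=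
    ((LinearMap.liftBaseChangeEquiv (ResidueField O)).finrank_eq.trans Subspace.dual_finrank_eq).symm
  let b := finBasisOfFinrankEq _ _ e
  choose y hy using fun i => TensorProduct.mk_surjective O X (ResidueField O) residue_surjective (b i)
  exact ⟨y, span_eq_top_of_tmul_eq_basis y b hy⟩

omit [IsDomain O] in
theorem rk_le : finrank O X ≤ finrank (ResidueField O) (X →ₗ[O] ResidueField O) := by
  obtain ⟨y, hy⟩ := gens (O := O) (X := X)
  have := finrank_range_le_card (R := O) y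
  rwa [Set.finrank, hy, finrank_top, Fintype.card_fin] at this

theorem ex_bas [IsNoetherianRing O] {I : Type} [Fintype I] (h : Fintype.card I ≤ finrank O X)
    (h' : finrank (ResidueField O) (X →ₗ[O] ResidueField O) ≤ Fintype.card I) :
    Nonempty (Basis I O X) := by
  obtain ⟨y, hy⟩ := gens (O := O) (X := X)
  have r := rk_le (O := O) (X := X)
  let φ := Fintype.linearCombination O y
  have s : LinearMap.range φ = ⊤ := by rw [Fintype.range_linearCombination, hy]
  have := (LinearMap.ker φ).finrank_quotient_add_finrank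
  rw [(φ.quotKerEquivOfSurjective (LinearMap.range_eq_top.1 s)).finrank_eq,
    finrank_fintype_fun_eq_card, Fintype.card_fin] at this
  exact ⟨((Pi.basisFun O _).map (LinearEquiv.ofBijective φ ⟨LinearMap.ker_eq_bot.1
    (Submodule.finrank_eq_zero.1 (by omega)), LinearMap.range_eq_top.1 s⟩)).reindex
    (Fintype.equivFinOfCardEq (by omega)).symm⟩

end dvr

end Vale.Agent.P014T.Kq
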