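import Vale.Agent.P014T.Kq.Abs

/-! Matrices of rank one, saturation of the local conditions. -/

namespace Vale.Agent.P014T.Kq
open Matrix Submodule Set Function Module IsLocalRing

variable {O : Type} [CommRing O]

structure R1 (M : M2 O) (e lam : Fin 2 → O) : Prop where
  le : lam ⬝ᵥ e = 1
  lM : lam ᵥ* M = 0
  Me : M *ᵥ e = 0
  one : ∃ t : O, 1 = vecMulVec e lam + t • M
  adj : ∃ t : O, IsUnit t ∧ M.adjugate = t • vecMulVec e lam

theorem ex_r1 [IsLocalRing O] {M : M2 O} (h : M.det = 0) (u : IsUnit M.trace) : ∃ e lam, R1 M e lam := by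
  obtain ⟨T, hT⟩ := u.exists_left_inv
  have k : ∃ e lam : Fin 2 → O, lam ⬝ᵥ e = 1 ∧ M.adjugate = M.trace • vecMulVec e lam := by
    rw [det_fin_two] at h
    rw [trace_fin_two] at u hT ⊢
    rcases isUnit_or_isUnit_of_isUnit_add u with v | v <;> obtain ⟨v, hv⟩ := v.exists_left_inv
    · refine ⟨![-M 0 1, M 0 0], ![-M 1 0 * v * T, M 0 0 * v * T], ?_, ?_⟩
      · simp [dotProduct]
        linear_combination (-v * T) * h + (T * (M 0 0 + M 1 1)) * hv + hT
      · rw [adjugate_fin_two]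
        ext i j; fin_cases i <;> fin_cases j <;> simp
        · linear_combination (-M 0 1 * M 1 0 * v) * hT + v * h - M 1 1 * hv
        · linear_combination (-M 0 1 * M 0 0 * v) * hT - M 0 1 * hv
        · linear_combination (-M 1 0 * M 0 0 * v) * hT - M 1 0 * hv
        · linear_combination (-M 0 0 * M 0 0 * v) * hT - M 0 0 * hv
    · refine ⟨![M 1 1, -M 1 0], ![M 1 1 * v * T, -M 0 1 * v * T], ?_, ?_⟩
      · simp [dotProduct]
        linear_combination (-v * T) * h + (T * (M 0 0 + M 1 1)) * hv + hT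
      · rw [adjugate_fin_two]
        ext i j; fin_cases i <;> fin_cases j <;> simp
        · linear_combination (-M 1 1 * M 1 1 * v) * hT - M 1 1 * hv
        · linear_combination (-M 0 1 * M 1 1 * v) * hT - M 0 1 * hv
        · linear_combination (-M 1 0 * M 1 1 * v) * hT - M 1 0 * hv
        · linear_combination (-M 0 1 * M 1 0 * v) * hT + v * h - M 0 0 * hv
  obtain ⟨e, lam, h1, h2⟩ := k
  refine ⟨e, lam, h1, u.smul_eq_zero.1 ?_, u.smul_eq_zero.1 ?_, ⟨T, ?_⟩, _, u, h2⟩
  · have := congrArg (lam ᵥ* ·) (adjugate_mul M)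
    simpa only [h, h2, Matrix.smul_mul, vecMulVec_mul, vecMul_smul, vecMul_vecMulVec, h1, one_smul,
      zero_smul, vecMul_zero] using this
  · have := congrArg (· *ᵥ e) (mul_adjugate M)
    simpa only [h, h2, Matrix.mul_smul, mul_vecMulVec, vecMulVec_mulVec, h1, smul_mulVec,
      MulOpposite.op_one, one_smul, zero_smul, zero_mulVec] using this
  · have : M.trace • (1 : M2 O) = M.adjugate + M := by
      rw [adjugate_fin_two, trace_fin_two]
      ext i j; fin_cases i <;> fin_cases j <;> simp [add_comm]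
    rw [← one_smul O (vecMulVec e lam), ← hT, mul_smul, ← h2, ← smul_add, ← this, ← mul_smul, hT, one_smul]

variable {M M' : M2 O} {e lam e' lam' : Fin 2 → O}

theorem R1.row (r : R1 M e lam) {m : Fin 2 → O} (h : m ᵥ* M = 0) : m = (m ⬝ᵥ e) • lam := by
  obtain ⟨t, ht⟩ := r.one
  have := congrArg (m ᵥ* ·) ht
  simpa only [vecMul_one, vecMul_add, vecMul_vecMulVec, vecMul_smul, h, smul_zero, add_zero] using this

theorem R1.col (r : R1 M e lam) {X : Type} [AddCommGroup X] [Module O X] {x : Fin 2 → X}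
    (h : ∀ i, ∑ j, M i j • x j = 0) (i : Fin 2) : x i = e i • lv lam x := by
  obtain ⟨t, ht⟩ := r.one
  have : x i = ∑ j, (1 : M2 O) i j • x j := by simp [one_apply]
  have k := h i
  rw [this, ht, lv_eq]
  simp only [Fin.sum_univ_two, Matrix.add_apply, vecMulVec_apply, Matrix.smul_apply, smul_eq_mul] at k ⊢
  linear_combination (norm := module) t • k

theorem R1.dual {A A' J : M2 O} (r : R1 (A - 1) e lam) (r' : R1 (A' - 1) e' lam') (u : IsUnit J.det)
    (h : Aᵀ * J * A' = J) : (∃ c : O, IsUnit c ∧ J *ᵥ e' = c • lam) ∧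
      ∃ c : O, IsUnit c ∧ e ᵥ* J = c • lam' := by
  have a : A *ᵥ e = e := by simpa only [sub_mulVec, one_mulVec, sub_eq_zero] using r.Me
  have a' : A' *ᵥ e' = e' := by simpa only [sub_mulVec, one_mulVec, sub_eq_zero] using r'.Me
  have k : J *ᵥ e' = _ := r.row (by
    rw [vecMul_sub, vecMul_one, sub_eq_zero, ← mulVec_transpose]
    conv_lhs => rw [← a', mulVec_mulVec, mulVec_mulVec, h])
  have k' : e ᵥ* J = _ := r'.row (by
    rw [vecMul_sub, vecMul_one, sub_eq_zero]
    conv_lhs => rw [← a, ← vecMul_transpose, vecMul_vecMul, vecMul_vecMul, ← mul_assoc, h])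
  refine ⟨⟨_, .of_mul_eq_one (lam' ⬝ᵥ J⁻¹ *ᵥ lam) ?_, k⟩, _, .of_mul_eq_one ((lam' ᵥ* J⁻¹) ⬝ᵥ lam) ?_, k'⟩
  · rw [← smul_eq_mul, ← dotProduct_smul, ← mulVec_smul, ← k, mulVec_mulVec, nonsing_inv_mul _ u,
      one_mulVec, r'.le]
  · rw [← smul_eq_mul, ← smul_dotProduct, ← smul_vecMul, ← k', vecMul_vecMul, mul_nonsing_inv _ u,
      vecMul_one, dotProduct_comm, r.le]

variable [IsDomain O]

theorem ex_sat [IsPrincipalIdealRing O] (N : Matrix (Fin 2) F4 O) {D : Matrix F4 (Fin 2) O}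
    (h : (N * D).det ≠ 0) : ∃ (C : M2 O) (Ns : Matrix (Fin 2) F4 O) (D : Matrix F4 (Fin 2) O),
      N = C * Ns ∧ Ns * D = 1 ∧ C.det ≠ 0 := by
  have r : finrank O (LinearMap.range N.mulVecLin) = 2 := by
    refine le_antisymm ((finrank_le _).trans (by simp)) (le_trans ?_ (Submodule.finrank_mono
      (LinearMap.range_comp_le_range D.mulVecLin N.mulVecLin)))
    rw [← mulVecLin_mul, LinearMap.finrank_range_of_inj (mulVec_injective_of_det_ne_zero h)]
    simp
  let b := finBasisOfFinrankEq O _ r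
  let ψ := b.equivFun.toLinearMap ∘ₗ N.mulVecLin.rangeRestrict
  choose w hw using fun i => (b.equivFun.surjective.comp N.mulVecLin.surjective_rangeRestrict)
    (Pi.single i 1)
  have e : N = (of fun i j => (b j).1 i) * LinearMap.toMatrix' ψ := by
    ext i j
    have := congrFun (congrArg Subtype.val (b.sum_equivFun (N.mulVecLin.rangeRestrict (Pi.single j 1)))) i
    simpa [mul_apply, ψ, mul_comm, -Basis.sum_repr, Fin.sum_univ_two] using this.symm
  refine ⟨_, _, (of w)ᵀ, e, ?_, fun z => h (by rw [e, Matrix.mul_assoc, det_mul, z, zero_mul])⟩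
  ext i j
  have := congrFun ((LinearMap.toMatrix'_mulVec ψ (w j)).trans (hw j)) i
  simpa [mul_apply, mulVec, dotProduct, one_apply, Pi.single_apply] using this

theorem loc_zero {Ns Ns' : Matrix (Fin 2) F4 O} {D D' Cb : Matrix F4 (Fin 2) O} {E : Matrix (Fin 2) F4 O}
    {B : Matrix F4 F4 O} {C C' Z : M2 O} (h : Ns * D = 1) (h' : Ns' * D' = 1) (hC : C.det ≠ 0)
    (h1 : (E * Cb).det ≠ 0) (h2 : C * Ns * Cb = 0) (h3 : Cbᵀ * B = Z * (C' * Ns')) :
    (1 - D * Ns)ᵀ * B * (1 - D' * Ns') = 0 := by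
  have can : ∀ {n m : Type} [Fintype n] [DecidableEq n] {T : Matrix n n O} {X : Matrix n m O},
      T.det ≠ 0 → T * X = 0 → X = 0 := fun {n m} _ _ T X a b => by
    have := congrArg (T.adjugate * ·) b
    simp only [← Matrix.mul_assoc, adjugate_mul, Matrix.smul_mul, Matrix.one_mul, Matrix.mul_zero] at this
    ext i j
    exact (mul_eq_zero.1 (congrFun (congrFun this i) j)).resolve_left a
  have z : Ns * Cb = 0 := can hC (by rw [← Matrix.mul_assoc, h2])
  have p : Ns * (1 - D * Ns) = 0 := by simp [Matrix.mul_sub, ← Matrix.mul_assoc, h]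
  have p' : Ns' * (1 - D' * Ns') = 0 := by simp [Matrix.mul_sub, ← Matrix.mul_assoc, h']
  have d : (fromRows E Ns).det ≠ 0 := fun k => h1 (by
    have := det_mul (fromRows E Ns) (fromCols Cb D)
    rwa [fromRows_mul_fromCols, z, h, det_fromBlocks_zero₂₁, k, zero_mul, det_one, mul_one] at this)
  have k := can (X := (E * Cb).det • (1 - D * Ns) - Cb * ((E * Cb).adjugate * (E * (1 - D * Ns)))) d (by
    rw [fromRows_mul, Matrix.mul_sub, Matrix.mul_sub Ns, Matrix.mul_smul, Matrix.mul_smul, p,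
      ← Matrix.mul_assoc, ← Matrix.mul_assoc Ns, z, ← Matrix.mul_assoc, mul_adjugate]
    simp)
  refine (smul_eq_zero.1 ?_).resolve_left h1
  rw [← Matrix.smul_mul, ← Matrix.smul_mul, ← transpose_smul, sub_eq_zero.1 k, transpose_mul,
    Matrix.mul_assoc _ Cbᵀ, h3]
  simp only [Matrix.mul_assoc, p', Matrix.mul_zero]

end Vale.Agent.P014T.Kq
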